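import Vale.Agent.P198.H3.Model

/-!
# Hyperbolic 3-space is homeomorphic to the open half-space, hence simply connected
-/

open Real Metric Filter Topology Set

namespace Vale.Agent.P198.H483

open P198H

lemma t_le (p q : H3) : p.t ≤ 2 * q.t * cosh (dist p q) := by
  have h := H3.cosh_dist_mul p q
  have hp := p.t_pos
  have hq := q.t_pos
  have h1 : 0 ≤ ‖p.z - q.z‖ ^ 2 := by positivity
  have h2 : p.t * p.t ≤ (2 * q.t * cosh (dist p q)) * p.t := by
    nlinarith [sq_nonneg q.t]
  exact le_of_mul_le_mul_right h2 hp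

lemma sq_le (p q : H3) : ‖p.z - q.z‖ ^ 2 + (p.t - q.t) ^ 2 ≤
    4 * q.t ^ 2 * cosh (dist p q) * (cosh (dist p q) - 1) := by
  have h := H3.cosh_dist_mul p q
  have hq := q.t_pos
  have h1 : 0 ≤ cosh (dist p q) - 1 := by linarith [one_le_cosh (dist p q)]
  have h2 := t_le p q
  rw [← h]
  have h3 : 2 * p.t * q.t ≤ 4 * q.t ^ 2 * cosh (dist p q) := by nlinarith
  exact mul_le_mul_of_nonneg_right h3 h1

lemma tendsto_bound (q : H3) : Tendsto (fun p : H3 => √(4 * q.t ^ 2 * cosh (dist p q) *
    (cosh (dist p q) - 1))) (𝓝 q) (𝓝 0) := by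
  have h : Continuous (fun p : H3 => √(4 * q.t ^ 2 * cosh (dist p q) * (cosh (dist p q) - 1))) := by
    have : Continuous (fun p : H3 => dist p q) := continuous_id.dist continuous_const
    fun_prop
  have h1 := h.tendsto q
  simpa using h1

lemma continuous_t : Continuous (fun p : H3 => p.t) := by
  rw [continuous_iff_continuousAt]
  intro q
  rw [ContinuousAt, tendsto_iff_dist_tendsto_zero]
  refine squeeze_zero (fun _ => dist_nonneg) (fun p => ?_) (tendsto_bound q)
  rw [Real.dist_eq]
  refine Real.abs_le_sqrt ?_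
  have := sq_le p q
  have h1 : 0 ≤ ‖p.z - q.z‖ ^ 2 := by positivity
  linarith

lemma continuous_z : Continuous (fun p : H3 => p.z) := by
  rw [continuous_iff_continuousAt]
  intro q
  rw [ContinuousAt, tendsto_iff_dist_tendsto_zero]
  refine squeeze_zero (fun _ => dist_nonneg) (fun p => ?_) (tendsto_bound q)
  rw [dist_eq_norm]
  refine Real.le_sqrt_of_sq_le ?_
  have := sq_le p q
  have h1 : 0 ≤ (p.t - q.t) ^ 2 := by positivity
  linarith

/-- the half-space model is homeomorphic to the open half-space -/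
noncomputable def homeo : H3 ≃ₜ {x : ℂ × ℝ | 0 < x.2} where
  toFun p := ⟨(p.z, p.t), p.t_pos⟩
  invFun x := H3.ofSub ⟨x.1, x.2⟩
  left_inv _ := rfl
  right_inv _ := rfl
  continuous_toFun := (continuous_z.prodMk continuous_t).subtype_mk _
  continuous_invFun := H3.continuous_ofSub.comp (continuous_subtype_val.subtype_mk _)

instance : ContractibleSpace H3 := by
  have h1 : Convex ℝ {x : ℂ × ℝ | 0 < x.2} := by
    intro x hx y hy a b ha hb hab
    simp only [mem_ofPred_eq] at hx hy ⊢
    change 0 < a * x.2 + b * y.2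
    rcases ha.eq_or_lt with h | h
    · have : b = 1 := by linarith
      rw [← h, this]
      simpa using hy
    · have := mul_pos h hx
      have := mul_nonneg hb hy.le
      linarith
  haveI : ContractibleSpace {x : ℂ × ℝ | 0 < x.2} := h1.contractibleSpace ⟨(0, 1), by simp⟩
  exact homeo.contractibleSpace

instance : SimplyConnectedSpace H3 := inferInstance

end Vale.Agent.P198.H483
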