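import Mathlib

/-!
# Quotients of proper metric spaces by free, properly discontinuous, cocompact isometric actions

For a torsion-free group `G` with a proper cocompact isometric action on a proper simply connected
metric space `E` the space of orbits is a compact metric space, locally isometric to `E`, with
covering space `E` and fundamental group `G`.
-/

open Metric Set Topology

namespace Vale.Agent.P198.H483

section

variable {E : Type*} [MetricSpace E] {G : Type*} [Group G] (ρ : G →* (E ≃ᵢ E))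

/-- proper action -/
def Prp : Prop := ∀ K : Set E, IsCompact K → {g : G | ((ρ g) '' K ∩ K).Nonempty}.Finite

/-- distance of orbits -/
noncomputable def D (x y : E) : ℝ := ⨅ g : G, dist x (ρ g y)

variable {ρ}

lemma D_le (x y : E) (g : G) : D ρ x y ≤ dist x (ρ g y) :=
  ciInf_le ⟨0, by rintro _ ⟨g, rfl⟩; exact dist_nonneg⟩ g

lemma D_nonneg (x y : E) : 0 ≤ D ρ x y := Real.iInf_nonneg fun _ => dist_nonneg

lemma finite_le [ProperSpace E] (hρ : Prp ρ) (x y : E) (R : ℝ) :
    {g : G | dist x (ρ g y) ≤ R}.Finite := by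
  refine (hρ (closedBall x (max R (dist x y))) (isCompact_closedBall _ _)).subset ?_
  intro g hg
  refine ⟨ρ g y, ⟨y, ?_, rfl⟩, ?_⟩
  · rw [mem_closedBall, dist_comm]
    exact le_max_right _ _
  · rw [mem_closedBall, dist_comm]
    exact le_trans hg (le_max_left _ _)

lemma exists_D [ProperSpace E] (hρ : Prp ρ) (x y : E) : ∃ g : G, D ρ x y = dist x (ρ g y) := by
  obtain ⟨g, hg, hmin⟩ := Set.exists_min_image {g : G | dist x (ρ g y) ≤ dist x y}
    (fun g => dist x (ρ g y)) (finite_le hρ x y _) ⟨1, by simp⟩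
  refine ⟨g, le_antisymm (D_le x y g) (le_ciInf fun g' => ?_)⟩
  by_cases h : dist x (ρ g' y) ≤ dist x y
  · exact hmin g' h
  · exact le_trans hg (not_le.1 h).le

lemma mul_apply (g h : G) (x : E) : ρ (g * h) x = ρ g (ρ h x) := by
  rw [map_mul]; rfl

lemma inv_apply (g : G) (x : E) : ρ g⁻¹ (ρ g x) = x := by
  rw [← mul_apply, inv_mul_cancel, map_one]; rfl

lemma apply_inv (g : G) (x : E) : ρ g (ρ g⁻¹ x) = x := by
  rw [← mul_apply, mul_inv_cancel, map_one]; rfl

lemma D_self (x : E) : D ρ x x = 0 :=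
  le_antisymm ((D_le x x 1).trans (by simp)) (D_nonneg x x)

lemma dist_inv (g : G) (x y : E) : dist x (ρ g y) = dist y (ρ g⁻¹ x) := by
  rw [← (ρ g⁻¹).isometry.dist_eq x (ρ g y), inv_apply, dist_comm]

lemma D_comm (x y : E) : D ρ x y = D ρ y x := by
  refine le_antisymm (le_ciInf fun g => ?_) (le_ciInf fun g => ?_)
  · rw [dist_inv]
    exact D_le x y g⁻¹
  · rw [dist_inv]
    exact D_le y x g⁻¹

lemma D_triangle [ProperSpace E] (hρ : Prp ρ) (x y z : E) : D ρ x z ≤ D ρ x y + D ρ y z := by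
  obtain ⟨g, hg⟩ := exists_D hρ x y
  obtain ⟨h, hh⟩ := exists_D hρ y z
  rw [hg, hh, ← (ρ g).isometry.dist_eq y (ρ h z), ← mul_apply]
  exact (D_le x z (g * h)).trans (dist_triangle _ _ _)

lemma D_smul_right (x y : E) (h : G) : D ρ x (ρ h y) = D ρ x y := by
  refine le_antisymm (le_ciInf fun g => ?_) (le_ciInf fun g => ?_)
  · have := D_le (ρ := ρ) x (ρ h y) (g * h⁻¹)
    rwa [mul_apply, inv_apply] at this
  · rw [← mul_apply]
    exact D_le x y (g * h)

lemma D_smul_left (x y : E) (h : G) : D ρ (ρ h x) y = D ρ x y := by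
  rw [D_comm, D_smul_right, D_comm]

end

section

variable {E : Type*} [MetricSpace E] [ProperSpace E] {G : Type*} [Group G] (ρ : G →* (E ≃ᵢ E))

/-- the orbit relation -/
def st : Setoid E where
  r x y := ∃ g : G, ρ g y = x
  iseqv := by
    refine ⟨fun x => ⟨1, by simp⟩, ?_, ?_⟩
    · rintro x y ⟨g, rfl⟩
      exact ⟨g⁻¹, inv_apply g y⟩
    · rintro x y z ⟨g, rfl⟩ ⟨h, rfl⟩
      exact ⟨g * h, mul_apply g h z⟩

variable {ρ}

variable (ρ) in
/-- the space of orbits (a name of its own, so that it carries no topology but that of `ms`) -/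
def OS : Type _ := Quotient (st ρ)

variable (ρ) in
/-- the projection -/
def pr (x : E) : OS ρ := Quotient.mk (st ρ) x

/-- the metric on the space of orbits -/
@[reducible] noncomputable def ms (hρ : Prp ρ) : MetricSpace (OS ρ) where
  dist := Quotient.lift₂ (D ρ) (by
    rintro x y x' y' ⟨g, rfl⟩ ⟨h, rfl⟩
    rw [D_smul_left, D_smul_right])
  dist_self := by
    rintro ⟨x⟩
    exact D_self x
  dist_comm := by
    rintro ⟨x⟩ ⟨y⟩
    exact D_comm x y
  dist_triangle := by
    rintro ⟨x⟩ ⟨y⟩ ⟨z⟩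
    exact D_triangle hρ x y z
  eq_of_dist_eq_zero := by
    rintro ⟨x⟩ ⟨y⟩ h
    obtain ⟨g, hg⟩ := exists_D hρ x y
    have h1 : D ρ x y = 0 := h
    rw [hg, dist_eq_zero] at h1
    exact Quotient.sound ⟨g, h1.symm⟩

end

/-- **the quotient** -/
theorem exists_quotient {E : Type} [MetricSpace E] [ProperSpace E] [SimplyConnectedSpace E]
    {G : Type} [Group G] (ρ : G →* (E ≃ᵢ E)) (hρ : Prp ρ)
    (hco : ∃ K : Set E, IsCompact K ∧ ⋃ g : G, (ρ g) '' K = univ)
    (htf : ∀ g : G, IsOfFinOrder g → g = 1) :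
    ∃ (M : Type) (_ : MetricSpace M) (p : E → M), CompactSpace M ∧ ConnectedSpace M ∧
      IsCoveringMap p ∧ Function.Surjective p ∧ (∀ x y, p x = p y ↔ ∃ g : G, ρ g y = x) ∧
      (∀ x, ∃ r > 0, (∀ y ∈ ball x r, ∀ z ∈ ball x r, dist (p y) (p z) = dist y z) ∧
        p '' ball x r = ball (p x) r) ∧
      ∀ m : M, Nonempty (FundamentalGroup M m ≃* G) := by
  letI iM : MetricSpace (OS ρ) := ms hρ
  obtain ⟨p, hp⟩ : ∃ p : E → OS ρ, p = pr ρ := ⟨_, rfl⟩
  have hpd : ∀ x y, dist (p x) (p y) = D ρ x y := by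
    intro x y
    rw [hp]
    rfl
  have hsur : Function.Surjective p := by
    rw [hp]
    exact Quotient.mk_surjective
  have hpe : ∀ x y, p x = p y ↔ ∃ g : G, ρ g y = x := by
    intro x y
    rw [hp]
    exact Quotient.eq
  have hball : ∀ x r, p '' ball x r = ball (p x) r := by
    intro x r
    ext m
    obtain ⟨y, rfl⟩ := hsur m
    constructor
    · rintro ⟨z, hz, hzy⟩
      rw [← hzy, mem_ball, hpd]
      refine (D_le z x 1).trans_lt ?_
      simpa using hz
    · intro h
      rw [mem_ball, hpd, D_comm] at h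
      obtain ⟨g, hg⟩ := exists_D hρ x y
      refine ⟨ρ g y, ?_, (hpe _ _).2 ⟨g, rfl⟩⟩
      rw [mem_ball, dist_comm, ← hg]
      exact h
  have hcont : Continuous p := by
    have h1 : LipschitzWith 1 p := by
      refine LipschitzWith.mk_one fun x y => ?_
      rw [hpd]
      exact (D_le x y 1).trans (by simp)
    exact h1.continuous
  have hopen : IsOpenMap p := by
    intro U hU
    rw [Metric.isOpen_iff]
    rintro _ ⟨x, hx, rfl⟩
    obtain ⟨r, hr, hrU⟩ := Metric.isOpen_iff.1 hU x hx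
    exact ⟨r, hr, by rw [← hball]; exact image_mono hrU⟩
  have hq : IsQuotientMap p := hopen.isQuotientMap hcont hsur
  -- the action is free
  have hfree : ∀ (g : G) (x : E), ρ g x = x → g = 1 := by
    intro g x hgx
    apply htf
    rw [← finite_powers]
    refine (hρ {x} isCompact_singleton).subset ?_
    rintro _ ⟨n, rfl⟩
    refine ⟨x, ⟨x, rfl, ?_⟩, rfl⟩
    have : ∀ n : ℕ, ρ (g ^ n) x = x := by
      intro n
      induction n with
      | zero => simp
      | succ n ih => rw [pow_succ, mul_apply, hgx, ih]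
    exact this n
  -- the action
  letI iA : MulAction G E :=
    { smul := fun g x => ρ g x
      one_smul := fun x => by
        change ρ 1 x = x
        simp
      mul_smul := fun g h x => mul_apply g h x }
  have hsm : ∀ (g : G) (x : E), g • x = ρ g x := fun _ _ => rfl
  haveI : ContinuousConstSMul G E := ⟨fun g => (ρ g).continuous⟩
  haveI : ProperlyDiscontinuousSMul G E := by
    refine ⟨fun {K L} hK hL => ?_⟩
    refine (hρ (K ∪ L) (hK.union hL)).subset ?_
    rintro g ⟨y, ⟨x, hx, rfl⟩, hy⟩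
    exact ⟨ρ g x, ⟨x, Or.inl hx, rfl⟩, Or.inr hy⟩
  haveI : IsCancelSMul G E := by
    refine isCancelSMul_iff_eq_one_of_smul_eq.mpr ?_
    intro g x h
    exact hfree g x h
  have hqc : IsQuotientCoveringMap p G :=
    hq.isQuotientCoveringMap_of_properlyDiscontinuousSMul (fun {e₁ e₂} => by
      rw [hpe]
      exact Iff.rfl)
  refine ⟨OS ρ, iM, p, ?_, ?_, hqc.isCoveringMap, hsur, hpe, ?_, ?_⟩
  · obtain ⟨K, hK, hKu⟩ := hco
    refine ⟨?_⟩
    have h1 : p '' K = univ := by
      rw [eq_univ_iff_forall]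
      intro m
      obtain ⟨x, rfl⟩ := hsur m
      have hx : x ∈ ⋃ g : G, (ρ g) '' K := hKu ▸ mem_univ x
      obtain ⟨g, y, hy, rfl⟩ := mem_iUnion.1 hx
      exact ⟨y, hy, (hpe _ _).2 ⟨g⁻¹, inv_apply g y⟩⟩
    rw [← h1]
    exact hK.image hcont
  · exact hsur.connectedSpace hcont
  · -- local isometry
    intro x
    have hfin : {g : G | dist x (ρ g x) ≤ 1}.Finite := finite_le hρ x x 1
    obtain ⟨ε, hε, hε1⟩ : ∃ ε > 0, ∀ g : G, g ≠ 1 → ε ≤ dist x (ρ g x) := by
      have h1 : ({g : G | dist x (ρ g x) ≤ 1} \ {1}).Finite := hfin.subset sdiff_subset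
      rcases ({g : G | dist x (ρ g x) ≤ 1} \ {1}).eq_empty_or_nonempty with h2 | h2
      · refine ⟨1, one_pos, fun g hg => ?_⟩
        by_contra hlt
        have : g ∈ ({g : G | dist x (ρ g x) ≤ 1} \ {1}) := ⟨(not_le.1 hlt).le, hg⟩
        rw [h2] at this
        exact this
      · obtain ⟨g₀, hg₀, hmin⟩ := Set.exists_min_image _ (fun g => dist x (ρ g x)) h1 h2
        refine ⟨min 1 (dist x (ρ g₀ x)), lt_min one_pos ?_, fun g hg => ?_⟩
        · rw [dist_pos]
          intro h
          exact hg₀.2 (hfree g₀ x h.symm)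
        · by_cases h3 : dist x (ρ g x) ≤ 1
          · exact (min_le_right _ _).trans (hmin g ⟨h3, hg⟩)
          · exact (min_le_left _ _).trans (not_le.1 h3).le
    refine ⟨ε / 4, by positivity, fun y hy z hz => ?_, hball x _⟩
    rw [hpd]
    refine le_antisymm ((D_le y z 1).trans (by simp)) (le_ciInf fun g => ?_)
    by_cases hg : g = 1
    · rw [hg]
      simp
    · have h1 := hε1 g hg
      have h2 : dist (ρ g x) (ρ g z) = dist x z := (ρ g).isometry.dist_eq x z
      rw [mem_ball] at hy hz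
      have h3 := dist_triangle4 x y (ρ g z) (ρ g x)
      have h4 := dist_triangle y x z
      rw [dist_comm (ρ g z) (ρ g x), h2, dist_comm x y, dist_comm x z] at h3
      rw [dist_comm x z] at h4
      linarith
  · intro m
    obtain ⟨e, he⟩ := hsur m
    exact ⟨(hqc.fundamentalGroupEquiv (x := m) ⟨e, he⟩).trans (MulEquiv.inv' G).symm⟩

end Vale.Agent.P198.H483
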