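import Vale.Agent.P198.CH.Close
import Vale.Agent.P198.H483.Quot
import Vale.Agent.P198.H483.H3

/-!
# Cannon's conjecture with the closed hyperbolic 3-manifold of a torsion-free group
-/

open Metric Set

namespace Vale.Agent.P198.H483

open Vale.Agent.P198.H P198H

theorem closed_manifold (G : Type) [Group G] (S : Finset G)
    (hS : Subgroup.closure (S : Set G) = ⊤) (δ : ℕ) (hδ : Thin S δ)
    (hZ : Nonempty (Bdry S ≃ₜ Metric.sphere (0 : EuclideanSpace ℝ (Fin 3)) 1)) :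
    ∃ ρ : G →* (H3 ≃ᵢ H3), Finite ρ.ker ∧
      (∀ K : Set H3, IsCompact K → {g : G | ((ρ g) '' K ∩ K).Nonempty}.Finite) ∧
      (∃ K : Set H3, IsCompact K ∧ ⋃ g : G, (ρ g) '' K = Set.univ) ∧
      ((∀ g : G, IsOfFinOrder g → g = 1) →
        Function.Injective ρ ∧
        ∃ (M : Type) (_ : MetricSpace M) (p : H3 → M),
          CompactSpace M ∧ ConnectedSpace M ∧ IsCoveringMap p ∧ Function.Surjective p ∧
          (∀ x y, p x = p y ↔ ∃ g : G, ρ g y = x) ∧
          (∀ x, ∃ r > 0, (∀ y ∈ ball x r, ∀ z ∈ ball x r, dist (p y) (p z) = dist y z) ∧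
            p '' ball x r = ball (p x) r) ∧
          ∀ m : M, Nonempty (FundamentalGroup M m ≃* G)) := by
  obtain ⟨ρ, hker, hpr, hco⟩ := P198C137.stage2 G S hS δ hδ hZ
  refine ⟨ρ, hker, hpr, hco, fun htf => ⟨?_, exists_quotient ρ hpr hco htf⟩⟩
  rw [injective_iff_map_eq_one]
  intro g hg
  apply htf
  have h1 : IsOfFinOrder (⟨g, hg⟩ : ρ.ker) := isOfFinOrder_of_finite _
  exact ρ.ker.subtype.isOfFinOrder h1

end Vale.Agent.P198.H483
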